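import Mathlib

/-!
Reduced words for involutive generators, and finite actions of large girth.
-/

set_option autoImplicit false

namespace Crest.Agent.R115

variable {α : Type} [DecidableEq α]

/-- Multiply a word on the left by an involutive generator. -/
def push (c : α) (w : List α) : List α := if w.head? = some c then w.tail else c :: w

/-- A word is reduced if adjacent letters differ. -/
def Red (w : List α) : Prop := w.IsChain (· ≠ ·)

omit [DecidableEq α] in
lemma red_nil : Red ([] : List α) := List.isChain_nil

lemma push_cases (c : α) (w : List α) :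
    (w = c :: push c w) ∨ (w.head? ≠ some c ∧ push c w = c :: w) := by
  unfold push
  split_ifs with h
  · left
    cases w with
    | nil => simp at h
    | cons a w => simp at h; simp [h]
  · exact Or.inr ⟨h, rfl⟩

lemma Red.push {w : List α} (h : Red w) (c : α) : Red (push c w) := by
  rcases push_cases c w with h1 | ⟨h1, h2⟩
  · rw [h1] at h; exact List.IsChain.tail h
  · rw [h2]
    refine List.IsChain.cons h fun y hy => ?_
    rintro rfl
    exact h1 hy

lemma push_push {w : List α} (h : Red w) (c : α) : push c (push c w) = w := by
  rcases push_cases c w with h1 | ⟨h1, h2⟩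
  · rcases push_cases c (push c w) with h3 | ⟨-, h3⟩
    · exfalso
      rw [h1, h3] at h
      exact (List.isChain_cons_cons.mp h).1 rfl
    · rw [h3, ← h1]
  · rw [h2]; simp [push]

lemma length_push (c : α) (w : List α) : (push c w).length ≤ w.length + 1 := by
  rcases push_cases c w with h1 | ⟨-, h2⟩
  · have := congrArg List.length h1
    simp at this; omega
  · simp [h2]

/-- The reduction of a word. -/
def red (w : List α) : List α := w.foldr push []

lemma red_foldr_push {ξ : List α} (h : Red ξ) (w : List α) : Red (w.foldr push ξ) := by
  induction w with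
  | nil => exact h
  | cons c w ih => exact ih.push c

lemma red_red (w : List α) : Red (red w) := red_foldr_push red_nil w

lemma length_red (w : List α) : (red w).length ≤ w.length := by
  induction w with
  | nil => simp [red]
  | cons c w ih => exact (length_push c _).trans (Nat.succ_le_succ ih)

lemma foldr_push' {Y : Type} {st : α → Y → Y} {Q : Y → Prop} (h1 : ∀ c y, Q y → Q (st c y))
    (h2 : ∀ c y, Q y → st c (st c y) = y) {y : Y} (hy : Q y) (c : α) (w : List α) :
    (push c w).foldr st y = st c (w.foldr st y) := by
  rcases push_cases c w with h | ⟨-, h⟩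
  · conv_rhs => rw [h]
    rw [List.foldr_cons, h2]
    induction (push c w) with
    | nil => exact hy
    | cons a u ih => exact h1 _ _ ih
  · rw [h, List.foldr_cons]

lemma foldr_red' {Y : Type} {st : α → Y → Y} {Q : Y → Prop} (h1 : ∀ c y, Q y → Q (st c y))
    (h2 : ∀ c y, Q y → st c (st c y) = y) {y : Y} (hy : Q y) (w : List α) :
    (red w).foldr st y = w.foldr st y := by
  induction w with
  | nil => rfl
  | cons c w ih =>
    change (push c (red w)).foldr st y = _
    rw [foldr_push' h1 h2 hy, ih, List.foldr_cons]

lemma foldr_push {Y : Type} {st : α → Y → Y} (h : ∀ c y, st c (st c y) = y) (y : Y) (c : α)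
    (w : List α) : (push c w).foldr st y = st c (w.foldr st y) :=
  foldr_push' (Q := fun _ => True) (fun _ _ _ => trivial) (fun c y _ => h c y) trivial c w

lemma foldr_red {Y : Type} {st : α → Y → Y} (h : ∀ c y, st c (st c y) = y) (y : Y)
    (w : List α) : (red w).foldr st y = w.foldr st y :=
  foldr_red' (Q := fun _ => True) (fun _ _ _ => trivial) (fun c y _ => h c y) trivial w

/-- Distinct short reduced words act differently on every point. -/
def Inj {Y : Type} (st : α → Y → Y) (G : ℕ) : Prop :=
  ∀ y u v, Red u → Red v → u.length ≤ G → v.length ≤ G → u.foldr st y = v.foldr st y → u = v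

/-- Words with the same action have the same action on the tree of reduced words. -/
lemma Inj.foldr_push_eq {Y : Type} {st : α → Y → Y} {G : ℕ} (hG : Inj st G)
    (h : ∀ c y, st c (st c y) = y) {u v : List α} (hu : u.length ≤ G) (hv : v.length ≤ G) {y : Y}
    (e : u.foldr st y = v.foldr st y) {ξ : List α} (hξ : Red ξ) :
    u.foldr push ξ = v.foldr push ξ := by
  have h1 : red u = red v := hG y _ _ (red_red u) (red_red v) ((length_red u).trans hu)
    ((length_red v).trans hv) (by rw [foldr_red h, foldr_red h, e])
  rw [← foldr_red' (Q := Red) (fun c y hy => hy.push c) (fun c y hy => push_push hy c) hξ u, h1,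
    foldr_red' (Q := Red) (fun c y hy => hy.push c) (fun c y hy => push_push hy c) hξ v]

omit [DecidableEq α] in
lemma tail_suffix_tail {ζ η : List α} (h : ζ <:+ η) : ζ.tail <:+ η.tail := by
  obtain ⟨a, rfl⟩ := h
  cases a with
  | nil => simp
  | cons c a => exact (List.tail_suffix ζ).trans (by simp)

lemma drop_suffix_foldr_push (ξ U : List α) : ξ.drop U.length <:+ U.foldr push ξ := by
  induction U with
  | nil => simp
  | cons c U ih =>
    rw [List.length_cons, ← List.tail_drop, List.foldr_cons, push]
    split_ifs
    · exact tail_suffix_tail ih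
    · exact ((List.tail_suffix _).trans ih).trans (List.suffix_cons _ _)

theorem exists_girth (α : Type) [DecidableEq α] [Finite α] (G : ℕ) :
    ∃ (n : ℕ) (st : α → Fin n → Fin n), 0 < n ∧ (∀ c y, st c (st c y) = y) ∧ Inj st G := by
  classical
  let X := {w : List α // Red w ∧ w.length ≤ G}
  have : Finite X := ((List.finite_length_le α G).subset (t := {w | Red w ∧ w.length ≤ G})
    fun w hw => hw.2).to_subtype
  let f : α → X → X := fun c w =>
    if h : (push c w.1).length ≤ G then ⟨push c w.1, w.2.1.push c, h⟩ else w
  have hf : ∀ c, Function.Involutive (f c) := by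
    intro c w
    by_cases h : (push c w.1).length ≤ G
    · have h1 : f c w = ⟨push c w.1, w.2.1.push c, h⟩ := dif_pos h
      rw [h1]
      have h2 : (push c (push c w.1)).length ≤ G := by rw [push_push w.2.1]; exact w.2.2
      exact (dif_pos h2).trans (Subtype.ext (push_push w.2.1 c))
    · have h1 : f c w = w := dif_neg h
      rw [h1, h1]
  let s : α → Equiv.Perm X := fun c => (hf c).toPerm
  have hs : ∀ c, s c * s c = 1 := fun c => Equiv.ext fun w => hf c w
  let x₀ : X := ⟨[], red_nil, Nat.zero_le _⟩
  have hx : ∀ u : List α, Red u → u.length ≤ G → ((u.map s).prod x₀).1 = u := by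
    intro u
    induction u with
    | nil => intros; rfl
    | cons c u ih =>
      intro h1 h2
      have h3 := ih (List.IsChain.tail h1) (by simp at h2; omega)
      have h4 : push c u = c :: u := by
        rcases push_cases c u with h | ⟨-, h⟩
        · exfalso
          rw [h] at h1
          exact (List.isChain_cons_cons.mp h1).1 rfl
        · exact h
      rw [List.map_cons, List.prod_cons, Equiv.Perm.mul_apply]
      change (f c _).1 = _
      simp only [f]
      rw [dif_pos (by rw [h3, h4]; exact h2)]
      simp only [h3, h4]
  have : Fintype (Equiv.Perm X) := Fintype.ofFinite _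
  let e := Fintype.equivFin (Equiv.Perm X)
  have key : ∀ (u : List α) (y : Fin (Fintype.card (Equiv.Perm X))),
      u.foldr (fun c y => e (s c * e.symm y)) y = e ((u.map s).prod * e.symm y) := by
    intro u y
    induction u with
    | nil => simp
    | cons c u ih => rw [List.foldr_cons, ih]; simp [mul_assoc]
  refine ⟨_, fun c y => e (s c * e.symm y), Fintype.card_pos, fun c y => ?_,
    fun y u v hu hv hu' hv' h => ?_⟩
  · simp [← mul_assoc, hs]
  · rw [key, key, e.apply_eq_iff_eq, mul_left_inj] at h
    rw [← hx u hu hu', h, hx v hv hv']

end Crest.Agent.R115
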