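import Mathlib
import Crest.Agent.R115.Words

/-!
Labelled cubic graphs without long common readable words.
-/

set_option autoImplicit false

namespace Crest.Agent.R115

/-- Edge labels: a colour and a mark. -/
abbrev Lb : Type := Fin 3 × Fin 6

/-- A label word can be read from a vertex along available edges. -/
def Back {Y : Type} (st : Fin 3 → Y → Y) (lab : Y → Fin 3 → Fin 6) (av : Y → Fin 3 → Prop) :
    Y → List Lb → Prop
  | _, [] => True
  | y, l :: w => av y l.1 ∧ lab y l.1 = l.2 ∧ Back st lab av (st l.1 y) w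

section
variable {Y : Type} {st : Fin 3 → Y → Y} {lab : Y → Fin 3 → Fin 6} {av : Y → Fin 3 → Prop}

lemma Back.take {y : Y} {w : List Lb} (h : Back st lab av y w) (n : ℕ) :
    Back st lab av y (w.take n) := by
  induction w generalizing y n with
  | nil => simp [Back]
  | cons l w ih =>
    cases n with
    | zero => trivial
    | succ n => exact ⟨h.1, h.2.1, ih h.2.2 n⟩

lemma Back.suffix {y : Y} {w u : List Lb} (h : Back st lab av y w) (hu : u <:+ w) :
    ∃ z, Back st lab av z u := by
  obtain ⟨a, rfl⟩ := hu
  induction a generalizing y with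
  | nil => exact ⟨y, h⟩
  | cons l a ih => exact ih h.2.2

lemma Back.weaken {y : Y} {w : List Lb} (h : Back st lab av y w) :
    Back st lab (fun _ _ => True) y w := by
  induction w generalizing y with
  | nil => trivial
  | cons l w ih => exact ⟨trivial, h.2.1, ih h.2.2⟩

lemma Back.red_fst (hlab : ∀ y c, lab (st c y) c = lab y c) {y : Y} {w : List Lb}
    (h : Back st lab av y w) (hw : Red w) : Red (w.map Prod.fst) := by
  induction w generalizing y with
  | nil => exact red_nil
  | cons l w ih =>
    have h1 := ih h.2.2 (List.IsChain.tail hw)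
    cases w with
    | nil => exact List.isChain_singleton _
    | cons l' w =>
      refine List.isChain_cons_cons.mpr ⟨fun e => (List.isChain_cons_cons.mp hw).1 ?_, h1⟩
      refine Prod.ext e ?_
      rw [← h.2.1, ← h.2.2.2.1, ← e, hlab]

lemma Back.push_take (hst : ∀ c y, st c (st c y) = y) (hlab : ∀ y c, lab (st c y) c = lab y c)
    (hav : ∀ y c, av y c → av (st c y) c) {y : Y} {c : Fin 3} (hc : av y c) {w : List Lb} {m : ℕ}
    (h : Back st lab av y (w.take (w.length - m))) :
    Back st lab av (st c y) ((push (c, lab y c) w).take ((push (c, lab y c) w).length - m)) := by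
  rcases push_cases (c, lab y c) w with h1 | ⟨-, h1⟩
  · generalize push (c, lab y c) w = u at h1
    subst h1
    rcases le_or_gt m u.length with h2 | h2
    · rw [List.length_cons, Nat.succ_sub h2, List.take_succ_cons] at h
      exact h.2.2
    · rw [Nat.sub_eq_zero_of_le h2.le]; trivial
  · rw [h1]
    rcases le_or_gt m w.length with h2 | h2
    · rw [List.length_cons, Nat.succ_sub h2, List.take_succ_cons]
      exact ⟨hav y c hc, hlab y c, by rwa [hst]⟩
    · rw [List.length_cons, Nat.sub_eq_zero_of_le h2]; trivial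

lemma Back.push (hst : ∀ c y, st c (st c y) = y) (hlab : ∀ y c, lab (st c y) c = lab y c)
    (hav : ∀ y c, av y c → av (st c y) c) {y : Y} {c : Fin 3} (hc : av y c) {w : List Lb}
    (h : Back st lab av y w) : Back st lab av (st c y) (push (c, lab y c) w) := by
  have := Back.push_take hst hlab hav hc (w := w) (m := 0) (by simpa using h)
  simpa using this

end

/-- The edges met along a colour word. -/
def edges {Y : Type} (st : Fin 3 → Y → Y) : Y → List (Fin 3) → List (Sym2 Y)
  | _, [] => []
  | y, c :: κ => s(y, st c y) :: edges st (st c y) κ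

/-- The marks read along a colour word. -/
def marks {Y : Type} (st : Fin 3 → Y → Y) (lab : Y → Fin 3 → Fin 6) : Y → List (Fin 3) → List (Fin 6)
  | _, [] => []
  | y, c :: κ => lab y c :: marks st lab (st c y) κ

lemma length_edges {Y : Type} (st : Fin 3 → Y → Y) (y : Y) (κ : List (Fin 3)) :
    (edges st y κ).length = κ.length := by
  induction κ generalizing y with
  | nil => rfl
  | cons c κ ih => simp [edges, ih]

lemma Back.marks_eq {Y : Type} {st : Fin 3 → Y → Y} {lab : Y → Fin 3 → Fin 6}
    {av : Y → Fin 3 → Prop} {y : Y} {w : List Lb} (h : Back st lab av y w) :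
    marks st lab y (w.map Prod.fst) = w.map Prod.snd := by
  induction w generalizing y with
  | nil => rfl
  | cons l w ih => simp only [List.map_cons, marks, h.2.1, ih h.2.2]

lemma marks_eq_map {Y : Type} (st : Fin 3 → Y → Y) (τ : Sym2 Y → Fin 6) (y : Y)
    (κ : List (Fin 3)) : marks st (fun y c => τ s(y, st c y)) y κ = (edges st y κ).map τ := by
  induction κ generalizing y with
  | nil => rfl
  | cons c κ ih => simp only [marks, edges, List.map_cons, ih]

lemma mem_edges {Y : Type} {st : Fin 3 → Y → Y} {z : Y} {κ : List (Fin 3)} {e : Sym2 Y}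
    (h : e ∈ edges st z κ) : ∃ u c, (c :: u).reverse <+: κ ∧
      e = s(u.foldr st z, (c :: u).foldr st z) := by
  induction κ generalizing z with
  | nil => simp [edges] at h
  | cons c κ ih =>
    rcases List.mem_cons.mp h with h | h
    · exact ⟨[], c, by simp, h⟩
    · obtain ⟨u, c', h1, h2⟩ := ih h
      refine ⟨u ++ [c], c', ?_, by simpa using h2⟩
      simpa using h1

lemma Red.reverse_prefix {α : Type} {u κ : List α} (h : Red κ) (hu : u.reverse <+: κ) : Red u := by
  have h1 : Red u.reverse := List.IsChain.infix h hu.isInfix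
  unfold Red at h1 ⊢
  rw [List.isChain_reverse] at h1
  exact h1.imp fun _ _ h => h.symm

lemma nodup_edges {Y : Type} {st : Fin 3 → Y → Y} {G : ℕ} (hG : Inj st G) (y : Y)
    {κ : List (Fin 3)} (h : Red κ) (hl : κ.length ≤ G) : (edges st y κ).Nodup := by
  induction κ generalizing y with
  | nil => exact List.nodup_nil
  | cons c κ ih =>
    refine List.nodup_cons.mpr ⟨fun hm => ?_, ih _ (List.IsChain.tail h) (by simp at hl; omega)⟩
    obtain ⟨u, c', h1, h2⟩ := mem_edges hm
    have h3 : (c' :: (u ++ [c])).reverse <+: c :: κ := by simpa using h1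
    have h4 : Red (c' :: (u ++ [c])) := h.reverse_prefix h3
    have h5 : (c' :: (u ++ [c])).length ≤ G := by
      have := h3.length_le
      rw [List.length_reverse] at this
      exact this.trans hl
    rcases Sym2.eq_iff.mp h2 with ⟨h6, -⟩ | ⟨h6, -⟩
    · have := hG y [] (u ++ [c]) red_nil (List.IsChain.tail h4) (Nat.zero_le _)
        (by simp at h5 ⊢; omega) (by simpa using h6)
      simp at this
    · have := hG y [] (c' :: (u ++ [c])) red_nil h4 (Nat.zero_le _) h5 (by simpa using h6)
      simp at this

lemma count_marks {E : Type} [Fintype E] [DecidableEq E] (es : List E) (h : es.Nodup)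
    (vs : List (Fin 6)) :
    (Finset.univ.filter fun τ : E → Fin 6 => es.map τ = vs).card * 6 ^ es.length ≤
      Fintype.card (E → Fin 6) := by
  induction es generalizing vs with
  | nil => rw [List.length_nil, pow_zero, mul_one]; exact Finset.card_le_univ _
  | cons e es ih =>
    obtain ⟨h1, h2⟩ := List.nodup_cons.mp h
    refine le_trans ?_ (ih h2 vs.tail)
    rw [List.length_cons, pow_succ', ← mul_assoc]
    refine Nat.mul_le_mul_right _ ?_
    have : (Finset.univ.filter fun τ : E → Fin 6 => (e :: es).map τ = vs).card * 6 =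
        ((Finset.univ.filter fun τ : E → Fin 6 => (e :: es).map τ = vs) ×ˢ
          (Finset.univ : Finset (Fin 6))).card := by simp
    rw [this]
    refine Finset.card_le_card_of_injOn (fun z => Function.update z.1 e z.2) ?_ ?_
    · rintro ⟨τ, u⟩ hz
      simp only [Finset.coe_product, Finset.coe_filter, Finset.mem_univ, true_and, Set.mem_prod,
        Set.mem_ofPred_eq] at hz ⊢
      rw [← hz.1, List.map_cons, List.tail_cons]
      exact List.map_congr_left fun a ha => Function.update_of_ne (by rintro rfl; exact h1 ha) _ _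
    · rintro ⟨τ, u⟩ hz ⟨τ', u'⟩ hz' hh
      simp only [Finset.coe_product, Finset.coe_filter, Finset.mem_univ, true_and, Set.mem_prod,
        Set.mem_ofPred_eq] at hz hz' hh
      have e1 : τ e = τ' e := by
        have := hz.1.trans hz'.1.symm
        simp only [List.map_cons, List.cons.injEq] at this
        exact this.1
      have e2 : u = u' := by simpa using congrFun hh e
      refine Prod.ext (funext fun a => ?_) e2
      by_cases ha : a = e
      · rw [ha]; exact e1
      · simpa [Function.update_of_ne ha] using congrFun hh a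

/-- A labelled cubic graph with some unavailable edges. -/
structure LG where
  /-- number of vertices -/
  n : ℕ
  /-- the three involutions -/
  st : Fin 3 → Fin n → Fin n
  /-- marks of edges -/
  lab : Fin n → Fin 3 → Fin 6
  /-- available edges -/
  av : Fin n → Fin 3 → Prop
  /-- radius bound -/
  ρ : ℕ

open Classical in
/-- The properties of one level. -/
def LG.Good (Q : ℕ) (L : LG) : Prop :=
  0 < L.n ∧ (∀ c y, L.st c (L.st c y) = y) ∧ (∀ y c, L.lab (L.st c y) c = L.lab y c) ∧
    (∀ y c, L.av y c → L.av (L.st c y) c) ∧ Inj L.st (L.ρ + 1) ∧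
    Q * (Finset.univ.filter fun y => ¬ ∀ c, L.av y c).card ≤ L.n

/-- No long common readable words. -/
def LG.Sep (Λ : ℕ) (L' L : LG) : Prop :=
  ∀ y o w, Red w → Back L.st L.lab L.av y w → Back L'.st L'.lab L'.av o w → w.length + 2 * Λ ≤ L.ρ

theorem exists_level (Q Λ : ℕ) (O : Type) [Fintype O] (stO : Fin 3 → O → O)
    (labO : O → Fin 3 → Fin 6) : ∃ L : LG, L.Good Q ∧ ∀ y o w, Red w →
      Back L.st L.lab L.av y w → Back stO labO (fun _ _ => True) o w → w.length + 2 * Λ ≤ L.ρ := by
  classical
  set ℓ := 4 * Q * Fintype.card O + 1 with hℓ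
  obtain ⟨n, st, hn, hst, hG⟩ := exists_girth (Fin 3) (ℓ + 2 * Λ + 1)
  let Bad : (Sym2 (Fin n) → Fin 6) → Fin n → Prop := fun τ y =>
    ∃ z : List.Vector (Fin 3) ℓ × O, Red z.1.1 ∧ (edges st y z.1.1).map τ = marks stO labO z.2 z.1.1
  have hcount : ∀ y, (Finset.univ.filter fun τ => Bad τ y).card * 6 ^ ℓ ≤
      3 ^ ℓ * Fintype.card O * Fintype.card (Sym2 (Fin n) → Fin 6) := by
    intro y
    have h1 : (Finset.univ.filter fun τ => Bad τ y) ⊆
        (Finset.univ : Finset (List.Vector (Fin 3) ℓ × O)).biUnion fun z =>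
          Finset.univ.filter fun τ => Red z.1.1 ∧
            (edges st y z.1.1).map τ = marks stO labO z.2 z.1.1 := by
      intro τ hτ
      obtain ⟨z, hz⟩ := (Finset.mem_filter.mp hτ).2
      exact Finset.mem_biUnion.mpr ⟨z, Finset.mem_univ _, Finset.mem_filter.mpr
        ⟨Finset.mem_univ _, hz⟩⟩
    refine (Nat.mul_le_mul_right _ ((Finset.card_le_card h1).trans
      Finset.card_biUnion_le)).trans ?_
    rw [Finset.sum_mul]
    refine (Finset.sum_le_card_nsmul _ _ (Fintype.card (Sym2 (Fin n) → Fin 6)) fun z _ => ?_).trans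
      (by simp [card_vector])
    by_cases hz : Red z.1.1
    · have := count_marks (edges st y z.1.1) (nodup_edges hG y hz (by rw [z.1.2]; omega))
        (marks stO labO z.2 z.1.1)
      rw [length_edges, z.1.2] at this
      simpa only [hz, true_and] using this
    · simp [hz]
  obtain ⟨τ, -, hτ⟩ : ∃ τ ∈ (Finset.univ : Finset (Sym2 (Fin n) → Fin 6)),
      (Finset.univ.filter fun y => Bad τ y).card * 6 ^ ℓ ≤ n * (3 ^ ℓ * Fintype.card O) := by
    refine Finset.exists_le_of_sum_le Finset.univ_nonempty ?_
    have hsw : ∑ τ, (Finset.univ.filter fun y => Bad τ y).card =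
        ∑ y, (Finset.univ.filter fun τ => Bad τ y).card := by
      simp only [Finset.card_filter]
      exact Finset.sum_comm
    rw [← Finset.sum_mul, hsw, Finset.sum_mul]
    refine (Finset.sum_le_card_nsmul _ _ _ fun y _ => hcount y).trans (le_of_eq ?_)
    simp only [Finset.card_univ, Fintype.card_fin, smul_eq_mul, Finset.sum_const]
    ring
  have hbad : 4 * Q * (Finset.univ.filter fun y => Bad τ y).card ≤ n := by
    rw [show 6 ^ ℓ = 2 ^ ℓ * 3 ^ ℓ from mul_pow 2 3 ℓ, ← mul_assoc, mul_comm (3 ^ ℓ), ← mul_assoc]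
      at hτ
    have h1 := Nat.le_of_mul_le_mul_right hτ (by positivity)
    have h2 : ℓ < 2 ^ ℓ := Nat.lt_two_pow_self
    rcases Nat.eq_zero_or_pos (Fintype.card O) with h0 | h0
    · rw [h0, mul_zero, Nat.le_zero, mul_eq_zero] at h1
      rcases h1 with h1 | h1
      · rw [h1]; exact Nat.zero_le _
      · exact absurd h1 (by positivity)
    · refine Nat.le_of_mul_le_mul_right (le_trans ?_ h1) h0
      calc _ = (Finset.univ.filter fun y => Bad τ y).card * (4 * Q * Fintype.card O) := by ring
        _ ≤ _ := Nat.mul_le_mul_left _ (by omega)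
  refine ⟨⟨n, st, fun y c => τ s(y, st c y), fun y c => ¬ Bad τ y ∧ ¬ Bad τ (st c y),
    ℓ + 2 * Λ⟩, ⟨hn, hst, fun y c => ?_, fun y c h => ?_, hG, ?_⟩, fun y o w hw h1 h2 => ?_⟩
  · simp only [hst, Sym2.eq_swap]
  · simp only [hst]; exact h.symm
  · refine le_trans ?_ hbad
    rw [mul_comm 4, mul_assoc]
    refine Nat.mul_le_mul_left _ ?_
    have h1 : (Finset.univ.filter fun y => ¬ ∀ c, ¬ Bad τ y ∧ ¬ Bad τ (st c y)) ⊆
        (Finset.univ.filter fun y => Bad τ y) ∪ Finset.univ.biUnion fun c : Fin 3 =>
          (Finset.univ.filter fun y => Bad τ y).image (st c) := by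
      intro y hy
      obtain ⟨c, hc⟩ := not_forall.mp (Finset.mem_filter.mp hy).2
      rcases not_and_or.mp hc with h | h
      · exact Finset.mem_union_left _ (Finset.mem_filter.mpr ⟨Finset.mem_univ _, not_not.mp h⟩)
      · exact Finset.mem_union_right _ (Finset.mem_biUnion.mpr ⟨c, Finset.mem_univ _,
          Finset.mem_image.mpr ⟨st c y, Finset.mem_filter.mpr ⟨Finset.mem_univ _, not_not.mp h⟩,
            hst c y⟩⟩)
    refine le_trans (le_of_eq (by congr)) ((Finset.card_le_card h1).trans
      ((Finset.card_union_le _ _).trans ?_))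
    have h2 := (Finset.card_biUnion_le (s := (Finset.univ : Finset (Fin 3)))
      (t := fun c => (Finset.univ.filter fun y => Bad τ y).image (st c))).trans
      (Finset.sum_le_card_nsmul _ _ _ fun c _ => Finset.card_image_le)
    simp only [Finset.card_univ, Fintype.card_fin, smul_eq_mul] at h2
    omega
  · simp only at h1 ⊢
    by_contra hlt
    have h3 : (w.take ℓ).length = ℓ := by rw [List.length_take]; omega
    have h4 := h1.take ℓ
    have h5 := h2.take ℓ
    have h6 : Red (w.take ℓ) := List.IsChain.infix hw (List.take_prefix _ _).isInfix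
    have h7 : Bad τ y := by
      refine ⟨(⟨(w.take ℓ).map Prod.fst, by rw [List.length_map, h3]⟩, o),
        h4.red_fst (fun y c => by simp only [hst, Sym2.eq_swap]) h6, ?_⟩
      simp only
      rw [h5.marks_eq, ← marks_eq_map, h4.marks_eq]
    generalize w.take ℓ = u at h3 h4
    cases u with
    | nil => simp [hℓ] at h3
    | cons l u => exact h4.1.1 h7

theorem exists_levels (Q Λ : ℕ) :
    ∃ L : ℕ → LG, (∀ j, (L j).Good Q) ∧ ∀ i j, i < j → (L i).Sep Λ (L j) := by
  classical
  refine exists_seq_of_forall_finset_exists (LG.Good Q) (LG.Sep Λ) fun s _ => ?_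
  obtain ⟨L, h1, h2⟩ := exists_level Q Λ (Σ x : s, Fin x.1.n) (fun c z => ⟨z.1, z.1.1.st c z.2⟩)
    (fun z c => z.1.1.lab z.2 c)
  refine ⟨L, h1, fun x hx y o w hw h3 h4 => h2 y ⟨⟨x, hx⟩, o⟩ w hw h3 ?_⟩
  clear h3 hw
  induction w generalizing o with
  | nil => trivial
  | cons l w ih => exact ⟨trivial, h4.2.1, ih _ h4.2.2⟩

end Crest.Agent.R115
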