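import Mathlib
import Crest.Agent.R115.Level

/-!
The combinatorial core: no finitely supported Lipschitz map is close to the identity on the
distinguished finite set.
-/

set_option autoImplicit false

namespace Crest.Agent.R115

/-- The data of one bounded piece of the metric space. -/
structure Data (lam : ℕ) where
  /-- size of the base graph -/
  nH : ℕ
  /-- involutions of the base graph -/
  sH : Lb → Fin nH → Fin nH
  /-- the levels -/
  L : ℕ → LG
  nH_pos : 0 < nH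
  hs : ∀ c a, sH c (sH c a) = a
  hInj : Inj sH (3600 * lam ^ 2)
  hL : ∀ j, (L j).Good (6 * (1 + 2 * lam))
  hSep : ∀ i j, i < j → (L i).Sep (3600 * lam ^ 2) (L j)

theorem exists_data (lam : ℕ) : Nonempty (Data lam) := by
  obtain ⟨n, st, h1, h2, h3⟩ := exists_girth Lb (3600 * lam ^ 2)
  obtain ⟨L, h4, h5⟩ := exists_levels (6 * (1 + 2 * lam)) (3600 * lam ^ 2)
  exact ⟨⟨n, st, L, h1, h2, h3, h4, h5⟩⟩

namespace Data

variable {lam : ℕ} (D : Data lam)

/-- The points of a piece. -/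
abbrev V : Type := Σ j : ℕ, Fin (D.L j).n × Fin D.nH

/-- Available edges. -/
def av (p : D.V) (c : Fin 3) : Prop := (D.L p.1).av p.2.1 c

/-- The other end of an edge. -/
def mv (c : Fin 3) (p : D.V) : D.V :=
  ⟨p.1, ((D.L p.1).st c p.2.1, D.sH (c, (D.L p.1).lab p.2.1 c) p.2.2)⟩

/-- Projection to the distinguished finite set. -/
def proj (p : D.V) : D.V := ⟨0, (⟨0, (D.hL 0).1⟩, p.2.2)⟩

/-- Functions with Lipschitz constant `K`. -/
def Adm (K : ℝ) (g : D.V → ℝ) : Prop :=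
  (∀ p c, D.av p c → |g p - g (D.mv c p)| ≤ K) ∧ (∀ p, |g p - g (D.proj p)| ≤ K * (60 * lam)) ∧
    ∀ p, |g (D.proj p)| ≤ K * (3600 * lam ^ 2)

lemma mv_mv (c : Fin 3) (p : D.V) : D.mv c (D.mv c p) = p := by
  obtain ⟨j, y, a⟩ := p
  simp only [mv, (D.hL j).2.1, (D.hL j).2.2.1, D.hs]

lemma av_mv {c : Fin 3} {p : D.V} (h : D.av p c) : D.av (D.mv c p) c := (D.hL p.1).2.2.2.1 _ _ h

/-- Truncated distance in the base graph. -/
noncomputable def dH (a b : Fin D.nH) : ℕ :=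
  sInf {n | n = 3600 * lam ^ 2 ∨ ∃ w : List Lb, w.length = n ∧ w.foldr D.sH a = b}

lemma dH_le (a b : Fin D.nH) : D.dH a b ≤ 3600 * lam ^ 2 := Nat.sInf_le (Or.inl rfl)

lemma dH_le_length {a b : Fin D.nH} {w : List Lb} (h : w.foldr D.sH a = b) :
    D.dH a b ≤ w.length := Nat.sInf_le (Or.inr ⟨w, rfl, h⟩)

lemma dH_spec (a b : Fin D.nH) : D.dH a b = 3600 * lam ^ 2 ∨
    ∃ w : List Lb, w.length = D.dH a b ∧ w.foldr D.sH a = b :=
  Nat.sInf_mem (s := {n | n = 3600 * lam ^ 2 ∨ ∃ w : List Lb, w.length = n ∧ w.foldr D.sH a = b})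
    ⟨_, Or.inl rfl⟩

lemma dH_self (a : Fin D.nH) : D.dH a a = 0 :=
  Nat.le_zero.mp (D.dH_le_length (w := []) rfl)

lemma dH_right (l : Lb) (a b : Fin D.nH) : D.dH a (D.sH l b) ≤ D.dH a b + 1 := by
  rcases D.dH_spec a b with h | ⟨w, h1, h2⟩
  · rw [h]; exact (D.dH_le _ _).trans (Nat.le_succ _)
  · rw [← h1]; exact D.dH_le_length (w := l :: w) (by rw [List.foldr_cons, h2])

lemma dH_left (l : Lb) (a b : Fin D.nH) : D.dH (D.sH l a) b ≤ D.dH a b + 1 := by
  rcases D.dH_spec a b with h | ⟨w, h1, h2⟩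
  · rw [h]; exact (D.dH_le _ _).trans (Nat.le_succ _)
  · rw [← h1]
    simpa using D.dH_le_length (a := D.sH l a) (w := w ++ [l]) (by simp [D.hs, h2])

/-- The cut-off function. -/
noncomputable def ψ (a b : Fin D.nH) : ℝ := 1 - D.dH a b / (3600 * lam ^ 2)

lemma ψ_self (a : Fin D.nH) : D.ψ a a = 1 := by simp [ψ, dH_self]

lemma abs_ψ (a b : Fin D.nH) : |D.ψ a b| ≤ 1 := by
  have h1 : (D.dH a b : ℝ) ≤ 3600 * lam ^ 2 := by exact_mod_cast D.dH_le a b
  have h2 : (D.dH a b : ℝ) / (3600 * lam ^ 2) ≤ 1 := div_le_one_of_le₀ h1 (by positivity)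
  have h3 : 0 ≤ (D.dH a b : ℝ) / (3600 * lam ^ 2) := by positivity
  exact abs_le.mpr ⟨by unfold ψ; linarith, by unfold ψ; linarith⟩

lemma ψ_aux {m n : ℕ} (h1 : m ≤ n + 1) (h2 : n ≤ m + 1) {t : ℝ} (ht : 0 ≤ t) :
    |(1 - m / t) - (1 - n / t)| ≤ 1 / t := by
  have h3 : (m : ℝ) ≤ n + 1 := by exact_mod_cast h1
  have h4 : (n : ℝ) ≤ m + 1 := by exact_mod_cast h2
  rw [show (1 - m / t) - (1 - n / t) = (n - m) / t by ring, abs_div, abs_of_nonneg ht]
  exact div_le_div_of_nonneg_right (abs_le.mpr ⟨by linarith, by linarith⟩) ht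

lemma ψ_right (l : Lb) (a b : Fin D.nH) : |D.ψ a b - D.ψ a (D.sH l b)| ≤ 1 / (3600 * lam ^ 2) :=
  ψ_aux (by simpa [D.hs] using D.dH_right l a (D.sH l b)) (D.dH_right l a b) (by positivity)

lemma ψ_left (l : Lb) (a b : Fin D.nH) : |D.ψ a b - D.ψ (D.sH l a) b| ≤ 1 / (3600 * lam ^ 2) :=
  ψ_aux (by simpa [D.hs] using D.dH_left l (D.sH l a) b) (D.dH_left l a b) (by positivity)

lemma exists_of_ψ (hlam : 1 ≤ lam) {a b : Fin D.nH} (h : D.ψ a b ≠ 0) :
    ∃ w : List Lb, w.length < 3600 * lam ^ 2 ∧ w.foldr D.sH a = b := by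
  have h1 : D.dH a b ≠ 3600 * lam ^ 2 := by
    intro h1
    apply h
    have : (0 : ℝ) < lam := by exact_mod_cast hlam
    rw [ψ, h1]; push_cast; field_simp; ring
  rcases D.dH_spec a b with h2 | ⟨w, h2, h3⟩
  · exact absurd h2 h1
  · exact ⟨w, by rw [h2]; exact lt_of_le_of_ne (D.dH_le a b) h1, h3⟩

/-- Points of the level `J`. -/
abbrev X (J : ℕ) : Type := Fin (D.L J).n × Fin D.nH

/-- Edges in the level `J`. -/
def mx {J : ℕ} (c : Fin 3) (x : D.X J) : D.X J :=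
  ((D.L J).st c x.1, D.sH (c, (D.L J).lab x.1 c) x.2)

lemma mx_mx {J : ℕ} (c : Fin 3) (x : D.X J) : D.mx c (D.mx c x) = x := by
  simp only [mx, (D.hL J).2.1, (D.hL J).2.2.1, D.hs]

/-- The cut-off restricted to older levels. -/
noncomputable def φ {J : ℕ} (z : D.X J × D.V) : ℝ := if z.2.1 < J then D.ψ z.1.2 z.2.2.2 else 0

lemma abs_φ {J : ℕ} (z : D.X J × D.V) : |D.φ z| ≤ 1 := by
  unfold φ; split_ifs
  · exact D.abs_ψ _ _
  · simp

lemma φ_right {J : ℕ} (x : D.X J) (p : D.V) (c : Fin 3) :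
    |D.φ (x, p) - D.φ (x, D.mv c p)| ≤ 1 / (3600 * lam ^ 2) := by
  by_cases h : p.1 < J
  · have e1 : D.φ (x, p) = D.ψ x.2 p.2.2 := if_pos h
    have e2 : D.φ (x, D.mv c p) = D.ψ x.2 (D.sH (c, (D.L p.1).lab p.2.1 c) p.2.2) := if_pos h
    rw [e1, e2]
    exact D.ψ_right _ _ _
  · have e1 : D.φ (x, p) = 0 := if_neg h
    have e2 : D.φ (x, D.mv c p) = 0 := if_neg h
    rw [e1, e2, sub_self, abs_zero]; positivity

lemma φ_left {J : ℕ} (x : D.X J) (p : D.V) (c : Fin 3) :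
    |D.φ (x, p) - D.φ (D.mx c x, p)| ≤ 1 / (3600 * lam ^ 2) := by
  unfold φ; simp only [mx]; split_ifs
  · exact D.ψ_left _ _ _
  · simp only [sub_self, abs_zero]; positivity

/-- Elementary moves in the coarse fibre product. -/
def Move {J : ℕ} (z z' : D.X J × D.V) : Prop :=
  D.φ z ≠ 0 ∧ D.φ z' ≠ 0 ∧ ((∃ c, (D.L J).av z.1.1 c ∧ z' = (D.mx c z.1, z.2)) ∨
    ∃ c, D.av z.2 c ∧ z' = (z.1, D.mv c z.2))

lemma Move.symm {J : ℕ} {z z' : D.X J × D.V} (h : D.Move z z') : D.Move z' z := by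
  obtain ⟨h1, h2, ⟨c, h3, rfl⟩ | ⟨c, h3, rfl⟩⟩ := h
  · exact ⟨h2, h1, Or.inl ⟨c, (D.hL J).2.2.2.1 _ _ h3, by rw [mx_mx]⟩⟩
  · exact ⟨h2, h1, Or.inr ⟨c, D.av_mv h3, by rw [mv_mv]⟩⟩

lemma exists_root (J : ℕ) : ∃ root : D.X J × D.V → D.X J × D.V,
    (∀ z, Relation.ReflTransGen D.Move (root z) z) ∧ ∀ z z', D.Move z z' → root z = root z' := by
  let s : Setoid (D.X J × D.V) := ⟨Relation.ReflTransGen D.Move, fun _ => .refl,
    fun h => by
      induction h with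
      | refl => exact .refl
      | tail _ h ih => exact .head h.symm ih, fun h h' => h.trans h'⟩
  exact ⟨fun z => (Quotient.mk s z).out, fun z => Quotient.mk_out (s := s) z,
    fun z z' h => congrArg Quotient.out (Quotient.sound (s := s) (.single h))⟩

lemma φ_spec (hlam : 1 ≤ lam) {J : ℕ} {z : D.X J × D.V} (h : D.φ z ≠ 0) :
    z.2.1 < J ∧ ∃ w : List Lb, w.length < 3600 * lam ^ 2 ∧ w.foldr D.sH z.1.2 = z.2.2.2 := by
  unfold φ at h
  split_ifs at h with h1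
  · exact ⟨h1, D.exists_of_ψ hlam h⟩
  · exact absurd rfl h

/-- The invariant along a cluster. -/
def Inv {J : ℕ} (y₀ : Fin (D.L J).n) (z : D.X J × D.V) : Prop :=
  ∃ ξ U : List Lb, Red ξ ∧ U.length < 3600 * lam ^ 2 ∧ U.foldr D.sH z.1.2 = z.2.2.2 ∧
    ξ.foldr (fun l => (D.L J).st l.1) y₀ = z.1.1 ∧
    Back (D.L J).st (D.L J).lab (D.L J).av z.1.1 ξ ∧
    Back (D.L z.2.1).st (D.L z.2.1).lab (D.L z.2.1).av z.2.2.1
      ((U.foldr push ξ).take ((U.foldr push ξ).length - 3600 * lam ^ 2))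

lemma Inv.move (hlam : 1 ≤ lam) {J : ℕ} {y₀ : Fin (D.L J).n} {z z' : D.X J × D.V}
    (h : D.Inv y₀ z) (hm : D.Move z z') : D.Inv y₀ z' := by
  obtain ⟨ξ, U, h1, h2, h3, h4, h5, h6⟩ := h
  obtain ⟨-, m2, m3⟩ := hm
  obtain ⟨-, U', u1, u2⟩ := D.φ_spec hlam m2
  obtain ⟨⟨y, a⟩, i, o, b⟩ := z
  obtain ⟨c, m4, rfl⟩ | ⟨c, m4, rfl⟩ := m3
  · simp only [mx] at *
    refine ⟨push (c, (D.L J).lab y c) ξ, U', h1.push _, u1, u2, ?_, ?_, ?_⟩
    · rw [foldr_push (fun l y => (D.hL J).2.1 l.1 y), h4]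
    · exact h5.push (D.hL J).2.1 (D.hL J).2.2.1 (D.hL J).2.2.2.1 m4
    · have : (U' ++ [(c, (D.L J).lab y c)]).foldr push ξ = U.foldr push ξ :=
        D.hInj.foldr_push_eq D.hs (y := a) (by simp; omega) h2.le (by simp [u2, h3]) h1
      rw [List.foldr_append] at this
      simp only [List.foldr_cons, List.foldr_nil] at this
      rwa [this]
  · simp only [mv, av] at *
    refine ⟨ξ, U', h1, u1, u2, h4, h5, ?_⟩
    have : U'.foldr push ξ = ((c, (D.L i).lab o c) :: U).foldr push ξ :=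
      D.hInj.foldr_push_eq D.hs (y := a) u1.le (by simp; omega) (by simp [u2, h3]) h1
    rw [this, List.foldr_cons]
    exact h6.push_take (D.hL i).2.1 (D.hL i).2.2.1 (D.hL i).2.2.2.1 m4

lemma length_foldr_push (U : List Lb) : (U.foldr push []).length ≤ U.length := length_red U

lemma reach (hlam : 1 ≤ lam) {J : ℕ} {z₀ z : D.X J × D.V}
    (h : Relation.ReflTransGen D.Move z₀ z) (hz : D.φ z ≠ 0) :
    ∃ κ : List (Fin 3), Red κ ∧ κ.length ≤ (D.L J).ρ ∧ κ.foldr (D.L J).st z₀.1.1 = z.1.1 := by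
  have h0 : D.φ z₀ ≠ 0 := by
    rcases h.cases_head with rfl | ⟨_, h1, -⟩
    · exact hz
    · exact h1.1
  have h1 : D.Inv z₀.1.1 z := by
    clear hz
    induction h with
    | refl =>
      obtain ⟨-, U, u1, u2⟩ := D.φ_spec hlam h0
      refine ⟨[], U, red_nil, u1, u2, rfl, trivial, ?_⟩
      rw [Nat.sub_eq_zero_of_le ((length_foldr_push U).trans u1.le)]
      trivial
    | tail _ h ih => exact ih.move D hlam h
  obtain ⟨ξ, U, h1, h2, -, h4, h5, h6⟩ := h1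
  refine ⟨ξ.map Prod.fst, h5.red_fst (D.hL J).2.2.1 h1, ?_, by rw [List.foldr_map, h4]⟩
  rw [List.length_map]
  obtain ⟨α, hα⟩ := drop_suffix_foldr_push ξ U
  obtain ⟨y', h7⟩ := h5.suffix (List.drop_suffix U.length ξ)
  have h8 := h7.take ((ξ.drop U.length).length - 3600 * lam ^ 2)
  have h9 : (ξ.drop U.length).take ((ξ.drop U.length).length - 3600 * lam ^ 2) <:+
      (U.foldr push ξ).take ((U.foldr push ξ).length - 3600 * lam ^ 2) := by
    rw [← hα]
    rcases le_or_gt (3600 * lam ^ 2) (ξ.drop U.length).length with h | h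
    · rw [List.length_append, Nat.add_sub_assoc h, List.take_length_add_append]
      exact List.suffix_append _ _
    · rw [Nat.sub_eq_zero_of_le h.le]; simp
  obtain ⟨o', h10⟩ := h6.suffix h9
  have h11 := D.hSep _ _ (D.φ_spec hlam hz).1 y' o' _ (List.IsChain.infix h1
    ((List.take_prefix _ _).isInfix.trans (List.drop_suffix _ _).isInfix)) h8 h10
  simp only [List.length_take, List.length_drop] at h11
  omega

open Classical in
/-- The direction towards the root. -/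
noncomputable def dir {J : ℕ} (y₀ y : Fin (D.L J).n) : Option (Fin 3) :=
  if h : ∃ κ : List (Fin 3), Red κ ∧ κ.length ≤ (D.L J).ρ ∧ κ.foldr (D.L J).st y₀ = y then
    h.choose.head? else none

lemma dir_spec {J : ℕ} {y₀ y : Fin (D.L J).n} {c : Fin 3}
    (h1 : ∃ κ : List (Fin 3), Red κ ∧ κ.length ≤ (D.L J).ρ ∧ κ.foldr (D.L J).st y₀ = y)
    (h2 : ∃ κ : List (Fin 3), Red κ ∧ κ.length ≤ (D.L J).ρ ∧
      κ.foldr (D.L J).st y₀ = (D.L J).st c y) :
    D.dir y₀ y = some c ∨ D.dir y₀ ((D.L J).st c y) = some c := by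
  rw [dir, dir, dif_pos h1, dif_pos h2]
  obtain ⟨a1, a2, a3⟩ := h1.choose_spec
  obtain ⟨b1, b2, b3⟩ := h2.choose_spec
  have : h2.choose = push c h1.choose :=
    (D.hL J).2.2.2.2.1 y₀ _ _ b1 (a1.push c) (b2.trans (Nat.le_succ _))
      ((length_push _ _).trans (Nat.succ_le_succ a2)) (by rw [foldr_push (D.hL J).2.1, a3, b3])
  rcases push_cases c h1.choose with h | ⟨-, h⟩
  · left; rw [h]; rfl
  · right; rw [this, h]; rfl

open Classical in
/-- Isoperimetric inequality for a function supported in one cluster. -/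
lemma isoperim {J : ℕ} (y₀ : Fin (D.L J).n) (f : D.X J → ℝ) (hf0 : ∀ x, 0 ≤ f x)
    (hf : ∀ x, f x ≠ 0 →
      ∃ κ : List (Fin 3), Red κ ∧ κ.length ≤ (D.L J).ρ ∧ κ.foldr (D.L J).st y₀ = x.1) :
    ∑ x, (f x - if ∀ c, (D.L J).av x.1 c then 0 else 3 * f x) ≤
      ∑ x, ∑ c, if (D.L J).av x.1 c then |f x - f (D.mx c x)| else 0 := by
  let g : D.X J → Fin 3 → ℝ := fun x c => if D.dir y₀ x.1 = some c then f x else 0
  have hg0 : ∀ x c, 0 ≤ g x c := fun x c => by
    simp only [g]; split_ifs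
    · exact hf0 x
    · exact le_rfl
  have hg1 : ∀ x, ∑ c, g x c ≤ f x := fun x => by
    cases h : D.dir y₀ x.1 with
    | none => simp [g, h, hf0]
    | some c => simp [g, h]
  have h1 : ∀ x c, (if (D.L J).av x.1 c then f x else 0) - g x c - g (D.mx c x) c ≤
      if (D.L J).av x.1 c then |f x - f (D.mx c x)| else 0 := by
    intro x c
    have a1 := hg0 x c
    have a2 := hg0 (D.mx c x) c
    split_ifs
    · by_cases b1 : f x = 0
      · linarith [abs_nonneg (f x - f (D.mx c x))]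
      by_cases b2 : f (D.mx c x) = 0
      · linarith [le_abs_self (f x - f (D.mx c x))]
      rcases D.dir_spec (hf _ b1) (hf _ b2) with h | h
      · have : g x c = f x := if_pos h
        linarith [abs_nonneg (f x - f (D.mx c x))]
      · have : g (D.mx c x) c = f (D.mx c x) := if_pos h
        linarith [le_abs_self (f x - f (D.mx c x))]
    · linarith
  refine le_trans ?_ (Finset.sum_le_sum fun x _ => Finset.sum_le_sum fun c _ => h1 x c)
  simp only [Finset.sum_sub_distrib]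
  have h2 : ∑ x, ∑ c, g (D.mx c x) c = ∑ x, ∑ c, g x c := by
    rw [Finset.sum_comm, Finset.sum_comm (f := fun x c => g x c)]
    refine Finset.sum_congr rfl fun c _ => ?_
    exact Equiv.sum_comp (Function.Involutive.toPerm (D.mx c) (D.mx_mx c)) (fun x => g x c)
  have h3 : ∑ x, ∑ c, g x c ≤ ∑ x, f x := Finset.sum_le_sum fun x _ => hg1 x
  have h4 : ∑ x, (3 * f x - if ∀ c, (D.L J).av x.1 c then 0 else 3 * f x) ≤
      ∑ x, ∑ c, if (D.L J).av x.1 c then f x else 0 := by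
    refine Finset.sum_le_sum fun x _ => ?_
    split_ifs with h
    · simp [h]
    · rw [sub_self]
      exact Finset.sum_nonneg fun c _ => by split_ifs; exacts [hf0 x, le_rfl]
  rw [Finset.sum_sub_distrib, ← Finset.mul_sum] at h4
  rw [h2]
  linarith

lemma adm_of_bound (hlam : 1 ≤ lam) {g : D.V → ℝ} {K b : ℝ} (h1 : ∀ p, |g p| ≤ b)
    (h2 : ∀ p c, D.av p c → |g p - g (D.mv c p)| ≤ K) (h3 : 2 * b ≤ K * (60 * lam)) :
    D.Adm K g := by
  have hl : (1 : ℝ) ≤ lam := by exact_mod_cast hlam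
  have hb : 0 ≤ b := (abs_nonneg _).trans (h1 (D.proj ⟨0, ⟨0, (D.hL 0).1⟩, ⟨0, D.nH_pos⟩⟩))
  have hK : 0 ≤ K := by
    by_contra hK
    nlinarith
  refine ⟨h2, fun p => (abs_sub _ _).trans (by linarith [h1 p, h1 (D.proj p)]), fun p => ?_⟩
  refine (h1 _).trans ?_
  have : K * (60 * lam) ≤ K * (3600 * lam ^ 2) :=
    mul_le_mul_of_nonneg_left (by nlinarith) hK
  linarith

theorem core (hlam : 1 ≤ lam) (B : Finset D.V) (m : D.V → D.V → ℝ)
    (h1 : ∀ K g, 0 < K → D.Adm K g → ∀ x c, D.av x c →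
      |∑ p ∈ B, m x p * g p - ∑ p ∈ B, m (D.mv c x) p * g p| ≤ K * lam)
    (h2 : ∀ K g, 0 < K → D.Adm K g → ∀ x,
      |∑ p ∈ B, m x p * g p - g (D.proj x)| ≤ K * (lam * (60 * lam))) : False := by
  classical
  have hl : (1 : ℝ) ≤ lam := by exact_mod_cast hlam
  obtain ⟨J, hJ0, hJ⟩ : ∃ J : ℕ, 0 < J ∧ ∀ p ∈ B, p.1 < J :=
    ⟨B.sup Sigma.fst + 1, Nat.succ_pos _, fun p hp =>
      Nat.lt_succ_of_le (Finset.le_sup (f := Sigma.fst) hp)⟩
  obtain ⟨root, hr1, hr2⟩ := D.exists_root J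
  let w : D.X J × D.V → D.X J → ℝ := fun C x =>
    ∑ p ∈ B, m ⟨J, x⟩ p * if root (x, p) = C then D.φ (x, p) else 0
  let 𝒞 : Finset (D.X J × D.V) := (Finset.univ ×ˢ B).image root
  have hw : ∀ (ε : D.X J × D.V → ℝ) x, ∑ C ∈ 𝒞, ε C * w C x =
      ∑ p ∈ B, m ⟨J, x⟩ p * (ε (root (x, p)) * D.φ (x, p)) := by
    intro ε x
    simp only [w, Finset.mul_sum]
    rw [Finset.sum_comm]
    refine Finset.sum_congr rfl fun p hp => ?_
    rw [Finset.sum_eq_single_of_mem (root (x, p))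
      (Finset.mem_image_of_mem _ (Finset.mem_product.mpr ⟨Finset.mem_univ _, hp⟩))]
    · simp only [if_true]; ring
    · intro C _ hC
      rw [if_neg hC.symm]; ring
  have hadm : ∀ (ε : D.X J × D.V → ℝ), (∀ C, |ε C| ≤ 1) → ∀ x,
      D.Adm (1 / (30 * lam)) fun p => ε (root (x, p)) * D.φ (x, p) := by
    intro ε hε x
    refine D.adm_of_bound hlam (b := 1) (fun p => ?_) (fun p c hc => ?_)
      (le_of_eq (by field_simp; norm_num))
    · rw [abs_mul]
      exact mul_le_one₀ (hε _) (abs_nonneg _) (D.abs_φ _)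
    · have a1 := D.φ_right x p c
      have a2 : (1 : ℝ) / (3600 * lam ^ 2) ≤ 1 / (30 * lam) :=
        one_div_le_one_div_of_le (by positivity) (by nlinarith)
      refine le_trans ?_ (a1.trans a2)
      by_cases b1 : D.φ (x, p) = 0
      · rw [b1, mul_zero, zero_sub, zero_sub, abs_neg, abs_neg, abs_mul]
        exact mul_le_of_le_one_left (abs_nonneg _) (hε _)
      by_cases b2 : D.φ (x, D.mv c p) = 0
      · rw [b2, mul_zero, sub_zero, sub_zero, abs_mul]
        exact mul_le_of_le_one_left (abs_nonneg _) (hε _)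
      rw [← hr2 (x, p) (x, D.mv c p) ⟨b1, b2, Or.inr ⟨c, hc, rfl⟩⟩, ← mul_sub, abs_mul]
      exact mul_le_of_le_one_left (abs_nonneg _) (hε _)
  have hsign : ∀ t : D.X J × D.V → ℝ, ∃ ε : D.X J × D.V → ℝ, (∀ C, |ε C| ≤ 1) ∧
      ∀ C, |t C| = ε C * t C := fun t =>
    ⟨fun C => if 0 ≤ t C then 1 else -1, fun C => by beta_reduce; split_ifs <;> simp, fun C => by
      beta_reduce
      split_ifs with h
      · rw [abs_of_nonneg h, one_mul]
      · rw [abs_of_neg (not_le.mp h), neg_one_mul]⟩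
  have hK : (0 : ℝ) < 1 / (30 * lam) := by positivity
  have hup : ∀ x, ∑ C ∈ 𝒞, |w C x| ≤ 1 + 2 * lam := by
    intro x
    obtain ⟨ε, e1, e2⟩ := hsign fun C => w C x
    simp only [e2]
    rw [hw]
    have a1 := (abs_le.mp (h2 _ _ hK (hadm ε e1 x) ⟨J, x⟩)).2
    have a2 : ε (root (x, D.proj ⟨J, x⟩)) * D.φ (x, D.proj ⟨J, x⟩) ≤ 1 := by
      refine (le_abs_self _).trans ?_
      rw [abs_mul]
      exact mul_le_one₀ (e1 _) (abs_nonneg _) (D.abs_φ _)
    have a3 : (1 : ℝ) / (30 * lam) * (lam * (60 * lam)) = 2 * lam := by field_simp; norm_num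
    linarith
  have hlow : ∀ x, 59 / 60 ≤ ∑ C ∈ 𝒞, |w C x| := by
    intro x
    have a0 : D.Adm (1 / (3600 * lam ^ 2)) fun p => D.ψ x.2 p.2.2 :=
      ⟨fun p c _ => D.ψ_right _ _ _, fun p => by simp only [proj, sub_self, abs_zero]; positivity,
        fun p => (D.abs_ψ _ _).trans (le_of_eq (by field_simp))⟩
    have a1 := (abs_le.mp (h2 _ _ (by positivity) a0 ⟨J, x⟩)).1
    have a2 := hw (fun _ => 1) x
    simp only [one_mul] at a2
    have a3 : ∑ p ∈ B, m ⟨J, x⟩ p * D.φ (x, p) = ∑ p ∈ B, m ⟨J, x⟩ p * D.ψ x.2 p.2.2 :=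
      Finset.sum_congr rfl fun p hp => by rw [φ, if_pos (hJ p hp)]
    have a4 : (1 : ℝ) / (3600 * lam ^ 2) * (lam * (60 * lam)) = 1 / 60 := by field_simp; norm_num
    have a5 : ∑ C ∈ 𝒞, w C x ≤ ∑ C ∈ 𝒞, |w C x| := Finset.sum_le_sum fun C _ => le_abs_self _
    simp only [proj, ψ_self] at a1
    linarith
  have hedge : ∀ x c, (D.L J).av x.1 c → ∑ C ∈ 𝒞, |w C x - w C (D.mx c x)| ≤ 7 / 100 := by
    intro x c hc
    obtain ⟨ε, e1, e2⟩ := hsign fun C => w C x - w C (D.mx c x)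
    simp only [e2, mul_sub, Finset.sum_sub_distrib]
    rw [hw, hw]
    have a1 := (abs_le.mp (h1 _ _ hK (hadm ε e1 x) ⟨J, x⟩ c hc)).2
    have hu : ∀ p, |ε (root (x, p)) * D.φ (x, p) - ε (root (D.mx c x, p)) * D.φ (D.mx c x, p)| ≤
        1 / (3600 * lam ^ 2) := by
      intro p
      refine le_trans ?_ (D.φ_left x p c)
      by_cases b1 : D.φ (x, p) = 0
      · rw [b1, mul_zero, zero_sub, zero_sub, abs_neg, abs_neg, abs_mul]
        exact mul_le_of_le_one_left (abs_nonneg _) (e1 _)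
      by_cases b2 : D.φ (D.mx c x, p) = 0
      · rw [b2, mul_zero, sub_zero, sub_zero, abs_mul]
        exact mul_le_of_le_one_left (abs_nonneg _) (e1 _)
      rw [← hr2 (x, p) (D.mx c x, p) ⟨b1, b2, Or.inl ⟨c, hc, rfl⟩⟩, ← mul_sub, abs_mul]
      exact mul_le_of_le_one_left (abs_nonneg _) (e1 _)
    have ht : (0 : ℝ) < 1 / (3600 * lam ^ 2) := by positivity
    have a2 : D.Adm (2 * (1 / (3600 * lam ^ 2))) fun p =>
        ε (root (x, p)) * D.φ (x, p) - ε (root (D.mx c x, p)) * D.φ (D.mx c x, p) :=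
      D.adm_of_bound hlam hu (fun p c' _ => (abs_sub _ _).trans
        (by linarith [hu p, hu (D.mv c' p)])) (by nlinarith)
    have a3 := (abs_le.mp (h2 _ _ (by positivity) a2 ⟨J, D.mx c x⟩)).2
    have a4 := (abs_le.mp (hu (D.proj ⟨J, D.mx c x⟩))).2
    simp only [mul_sub, Finset.sum_sub_distrib] at a3
    have a5 : (1 : ℝ) / (30 * lam) * lam = 1 / 30 := by field_simp
    have a6 : 2 * ((1 : ℝ) / (3600 * lam ^ 2)) * (lam * (60 * lam)) = 1 / 30 := by
      field_simp; norm_num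
    have a7 : (1 : ℝ) / (3600 * lam ^ 2) ≤ 1 / 3600 :=
      one_div_le_one_div_of_le (by positivity) (by nlinarith)
    change _ - ∑ p ∈ B, m ⟨J, D.mx c x⟩ p * _ ≤ _ at a1
    linarith
  have hiso := Finset.sum_le_sum fun C (_ : C ∈ 𝒞) =>
    D.isoperim C.1.1 (fun x => |w C x|) (fun _ => abs_nonneg _) (fun x hx => by
      obtain ⟨p, -, hp⟩ := Finset.exists_ne_zero_of_sum_ne_zero (abs_ne_zero.mp hx)
      have hp' := right_ne_zero_of_mul hp
      split_ifs at hp' with h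
      · rw [← h]; exact D.reach hlam (hr1 (x, p)) hp'
      · exact absurd rfl hp')
  rw [Finset.sum_comm] at hiso
  have b1 : ∑ C ∈ 𝒞, ∑ x : D.X J, ∑ c, (if (D.L J).av x.1 c then
      |(|w C x|) - (|w C (D.mx c x)|)| else 0) ≤ ∑ _x : D.X J, (21 / 100 : ℝ) := by
    rw [Finset.sum_comm]
    refine Finset.sum_le_sum fun x _ => ?_
    rw [Finset.sum_comm]
    refine (Finset.sum_le_sum (g := fun _ => 7 / 100) fun c _ => ?_).trans (by simp; norm_num)
    split_ifs with h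
    · exact (Finset.sum_le_sum fun C _ => abs_abs_sub_abs_le_abs_sub _ _).trans (hedge x c h)
    · simp only [Finset.sum_const_zero]; norm_num
  have b2 : ∑ x : D.X J, (59 / 60 - if ∀ c, (D.L J).av x.1 c then 0 else 3 * (1 + 2 * lam : ℝ)) ≤
      ∑ x : D.X J, ∑ C ∈ 𝒞, (|w C x| - if ∀ c, (D.L J).av x.1 c then 0 else 3 * |w C x|) := by
    refine Finset.sum_le_sum fun x _ => ?_
    rw [Finset.sum_sub_distrib]
    split_ifs
    · simpa using hlow x
    · rw [← Finset.mul_sum]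
      linarith [hlow x, hup x]
  have b3 : ∑ x : D.X J, (if ∀ c, (D.L J).av x.1 c then 0 else 3 * (1 + 2 * lam : ℝ)) ≤
      ∑ _x : D.X J, (1 / 2 : ℝ) := by
    rw [Fintype.sum_prod_type_right, Fintype.sum_prod_type_right]
    refine Finset.sum_le_sum fun a _ => ?_
    have c1 : ((6 * (1 + 2 * lam) * (Finset.univ.filter fun y => ¬ ∀ c, (D.L J).av y c).card : ℕ)
      : ℝ) ≤ (D.L J).n := by exact_mod_cast (D.hL J).2.2.2.2.2
    push_cast at c1
    rw [Finset.sum_ite, Finset.sum_const_zero, zero_add, Finset.sum_const, Finset.sum_const,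
      nsmul_eq_mul, nsmul_eq_mul, Finset.card_univ, Fintype.card_fin]
    linarith
  have b4 : (0 : ℝ) < Fintype.card (D.X J) := by
    have := (D.hL J).1
    have := D.nH_pos
    simp only [Fintype.card_prod, Fintype.card_fin]
    positivity
  rw [Finset.sum_sub_distrib] at b2
  simp only [Finset.sum_const, Finset.card_univ, nsmul_eq_mul] at b1 b2 b3
  linarith

end Data

end Crest.Agent.R115
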