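import Mathlib
import Crest.Prelude.Def_LipschitzFree

/-!
General facts on Lipschitz-free spaces.
-/

set_option autoImplicit false

namespace Crest.Agent.R115

open Crest.AnalysisR

attribute [local instance] PointedMetric.metric

variable {P : PointedMetric}

/-- The point mass. -/
noncomputable def sgl (x : P.M) : P.Mol := Finsupp.single x 1

lemma pairing_sgl (x : P.M) (g : P.M → ℝ) : P.pairing (sgl x) g = g x := by
  unfold PointedMetric.pairing
  change (Finsupp.single x (1 : ℝ)).sum _ = _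
  rw [Finsupp.sum_single_index (by simp), one_mul]

lemma pairing_sub (a b : P.Mol) (g : P.M → ℝ) :
    P.pairing (a - b) g = P.pairing a g - P.pairing b g := by
  rw [sub_eq_add_neg, P.pairing_add, P.pairing_neg, sub_eq_add_neg]

lemma abs_pairing_le {K : ℝ} (hK : 0 < K) {g : P.M → ℝ} (hg : ∀ u v, |g u - g v| ≤ K * dist u v)
    (h0 : g P.base = 0) (a : P.Mol) : |P.pairing a g| ≤ K * ‖a‖ := by
  let f : P.Lip1 := ⟨fun u => g u / K, LipschitzWith.of_dist_le_mul fun u v => by
    rw [Real.dist_eq, ← sub_div, abs_div, abs_of_pos hK, div_le_iff₀ hK, NNReal.coe_one, one_mul,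
      mul_comm]
    exact hg u v, by simp [h0]⟩
  have h1 : |P.pairing a f.1| ≤ ‖a‖ := le_ciSup (P.freeNorm_bddAbove a) f
  have h2 : P.pairing a g = K * P.pairing a f.1 := by
    unfold PointedMetric.pairing
    rw [Finsupp.mul_sum]
    exact Finsupp.sum_congr fun _ _ => by simp only [f]; field_simp
  rw [h2, abs_mul, abs_of_pos hK]
  exact mul_le_mul_of_nonneg_left h1 hK.le

lemma norm_mol_le {a : P.Mol} {C : ℝ}
    (h : ∀ g : P.M → ℝ, (∀ u v, |g u - g v| ≤ dist u v) → g P.base = 0 → |P.pairing a g| ≤ C) :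
    ‖a‖ ≤ C :=
  ciSup_le fun f : P.Lip1 => h f.1 (fun u v => by simpa [Real.dist_eq] using f.2.1.dist_le_mul u v)
    f.2.2

lemma norm_sgl_sub (x y : P.M) : ‖sgl x - sgl y‖ ≤ dist x y :=
  norm_mol_le fun g hg _ => by rw [pairing_sub, pairing_sgl, pairing_sgl]; exact hg x y

lemma norm_sgl (x : P.M) : ‖sgl x‖ ≤ dist x P.base :=
  norm_mol_le fun g hg h0 => by simpa [pairing_sgl, h0] using hg x P.base

lemma mol_induction {p : P.Mol → Prop} (a : P.Mol) (zero : p 0)
    (add : ∀ a b, p a → p b → p (a + b)) (single : ∀ (x : P.M) (r : ℝ), p (r • sgl x)) : p a := by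
  refine Finsupp.induction_linear (motive := p) a zero add fun x r => ?_
  have := single x r
  change p (r • Finsupp.single x (1 : ℝ)) at this
  rwa [Finsupp.smul_single, smul_eq_mul, mul_one] at this

/-- Push-forward of molecules. -/
noncomputable def pushL (ρ : P.M → P.M) : P.Mol →ₗ[ℝ] P.Mol := Finsupp.lmapDomain ℝ ℝ ρ

lemma pairing_pushL (ρ : P.M → P.M) (a : P.Mol) (g : P.M → ℝ) :
    P.pairing (pushL ρ a) g = P.pairing a fun u => g (ρ u) := by
  unfold PointedMetric.pairing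
  exact Finsupp.sum_mapDomain_index (fun _ => by simp) (fun _ _ _ => by ring)

lemma pushL_congr {ρ σ : P.M → P.M} {a : P.Mol} (h : ∀ u ∈ (P.coeffs a).support, ρ u = σ u) :
    pushL ρ a = pushL σ a := Finsupp.mapDomain_congr h

lemma pushL_id (a : P.Mol) : pushL id a = a := Finsupp.mapDomain_id

lemma exists_push {K : ℝ} (hK : 0 < K) {ρ : P.M → P.M}
    (hρ : ∀ u v, dist (ρ u) (ρ v) ≤ K * dist u v) (h0 : ρ P.base = P.base) :
    ∃ T : P.FreeSpace →L[ℝ] P.FreeSpace, (∀ x, ‖T x‖ ≤ K * ‖x‖) ∧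
      (∀ a : P.Mol, T a = (pushL ρ a : P.Mol)) ∧
      ((Set.range ρ).Finite → FiniteDimensional ℝ (LinearMap.range T.toLinearMap)) := by
  have h1 : ∀ a : P.Mol, ‖pushL ρ a‖ ≤ K * ‖a‖ := fun a => norm_mol_le fun g hg g0 => by
    rw [pairing_pushL]
    exact abs_pairing_le hK (fun u v => (hg _ _).trans (hρ u v)) (by rw [h0, g0]) a
  let T₀ : P.Mol →L[ℝ] P.Mol := (pushL ρ).mkContinuous K h1
  have h2 : ∀ a : P.Mol, T₀.completion a = (pushL ρ a : P.Mol) := fun a =>
    T₀.completion_apply_coe a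
  refine ⟨T₀.completion, fun x => ?_, h2, fun hf => ?_⟩
  · induction x using UniformSpace.Completion.induction_on with
    | hp => exact isClosed_le (by fun_prop) (by fun_prop)
    | ih a => rw [h2, UniformSpace.Completion.norm_coe, UniformSpace.Completion.norm_coe]; exact h1 a
  · let S : Submodule ℝ P.FreeSpace :=
      Submodule.span ℝ ((fun y => ((sgl y : P.Mol) : P.FreeSpace)) '' Set.range ρ)
    have : FiniteDimensional ℝ S := FiniteDimensional.span_of_finite ℝ (hf.image _)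
    refine Submodule.finiteDimensional_of_le (S₂ := S) ?_
    rintro _ ⟨x, rfl⟩
    change T₀.completion x ∈ S
    induction x using UniformSpace.Completion.induction_on with
    | hp => exact S.closed_of_finiteDimensional.preimage T₀.completion.continuous
    | ih a =>
      induction a using mol_induction with
      | zero => rw [UniformSpace.Completion.coe_zero, map_zero]; exact S.zero_mem
      | add a b ha hb => rw [UniformSpace.Completion.coe_add, map_add]; exact S.add_mem ha hb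
      | single x r =>
        have h4 : pushL ρ (sgl x) = sgl (ρ x) := Finsupp.mapDomain_single
        rw [UniformSpace.Completion.coe_smul, map_smul, h2, h4]
        exact S.smul_mem _ (Submodule.subset_span ⟨_, ⟨x, rfl⟩, rfl⟩)

lemma compact_approx {K : Set P.FreeSpace} (hK : IsCompact K) {η : ℝ} (hη : 0 < η) :
    ∃ B : Finset P.M, ∀ z ∈ K, ∃ a : P.Mol, (P.coeffs a).support ⊆ B ∧ ‖z - a‖ ≤ η := by
  classical
  obtain ⟨t, ht⟩ := hK.elim_finite_subcover (fun a : P.Mol => Metric.ball (a : P.FreeSpace) η)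
    (fun _ => Metric.isOpen_ball) fun z _ => by
      obtain ⟨a, ha⟩ := UniformSpace.Completion.denseRange_coe.exists_dist_lt z hη
      exact Set.mem_iUnion.mpr ⟨a, ha⟩
  refine ⟨t.biUnion fun a => (P.coeffs a).support, fun z hz => ?_⟩
  obtain ⟨a, ha, h⟩ := Set.mem_iUnion₂.mp (ht hz)
  exact ⟨a, Finset.subset_biUnion_of_mem (fun a => (P.coeffs a).support) ha,
    (mem_ball_iff_norm.mp h).le⟩

theorem hasAP_of_retract (hsep : ∀ u v : P.M, u ≠ v → 1 ≤ dist u v)
    (h : ∀ B : Finset P.M, ∃ ρ : P.M → P.M, (∀ u v, dist (ρ u) (ρ v) ≤ dist u v) ∧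
      ρ P.base = P.base ∧ (∀ u ∈ B, ρ u = u) ∧ ∃ D : ℝ, ∀ u v, dist (ρ u) (ρ v) ≤ D) :
    HasAP P.FreeSpace := by
  classical
  intro K hK ε hε
  obtain ⟨B, hB⟩ := compact_approx hK (η := ε / 4) (by positivity)
  obtain ⟨ρ, r1, r2, r3, D, r4⟩ := h B
  have hD : 0 ≤ D := dist_nonneg.trans (r4 P.base P.base)
  obtain ⟨R, R1, R2, -⟩ := exists_push (K := 1) one_pos (by simpa using r1) r2
  obtain ⟨B', hB'⟩ := compact_approx hK (η := ε / (2 * (D + 2))) (by positivity)
  let σ : P.M → P.M := fun u => ρ (if u ∈ B' then u else P.base)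
  obtain ⟨T, T1, T2, T3⟩ := exists_push (K := D + 1) (ρ := σ) (by positivity) (fun u v => by
    rcases eq_or_ne u v with rfl | huv
    · simp
    · exact (r4 _ _).trans (by nlinarith [hsep u v huv])) (by simp [σ, r2])
  refine ⟨T, T3 (((insert P.base B').finite_toSet.image ρ).subset ?_), fun x hx => ?_⟩
  · rintro _ ⟨u, rfl⟩
    refine ⟨_, ?_, rfl⟩
    split_ifs with hu <;> simp [*]
  obtain ⟨a, a1, a2⟩ := hB x hx
  obtain ⟨b, b1, b2⟩ := hB' x hx
  have e1 : R a = a := by rw [R2, pushL_congr (σ := id) fun u hu => r3 u (a1 hu), pushL_id]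
  have e2 : T b = R b := by
    rw [R2, T2, pushL_congr (σ := ρ) fun u hu => by simp [σ, b1 hu]]
  have e3 : T x - x = T (x - b) - R (x - b) + (R (x - a) - (x - a)) := by
    simp only [map_sub, e1, e2]; abel
  have e4 : (D + 2) * (ε / (2 * (D + 2))) = ε / 2 := by field_simp
  have c1 := T1 (x - b)
  have c2 := R1 (x - b)
  have c3 := R1 (x - a)
  have c4 := norm_sub_le (T (x - b)) (R (x - b))
  have c5 := norm_sub_le (R (x - a)) (x - a)
  have c6 := mul_le_mul_of_nonneg_left b2 (show 0 ≤ D + 2 by positivity)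
  rw [e3]
  refine (norm_add_le _ _).trans ?_
  linarith

theorem approx_of_hasBAP (h : HasBAP P.FreeSpace) : ∃ k : ℕ, ∀ A : Set P.M, A.Finite →
    ∀ D : ℝ, ∃ (B : Finset P.M) (μ : P.M → P.Mol), ∀ x, dist x P.base ≤ D →
      (P.coeffs (μ x)).support ⊆ B ∧ (∀ y, dist y P.base ≤ D → ‖μ x - μ y‖ ≤ k * dist x y + 1) ∧
        ∀ y ∈ A, ‖μ x - sgl y‖ ≤ k * dist x y + 1 := by
  obtain ⟨lam, h⟩ := h
  obtain ⟨k, hk⟩ := exists_nat_ge lam
  refine ⟨k, fun A hA D => ?_⟩
  obtain ⟨T, T1, T2, T3⟩ := h _ (hA.image fun y => ((sgl y : P.Mol) : P.FreeSpace)).isCompact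
    (1 / 2) (by norm_num)
  have T4 : ∀ a : P.Mol, ‖T a‖ ≤ k * ‖a‖ := fun a => by
    simpa using T.le_of_opNorm_le (T2.trans hk) a
  have hc : IsCompact (Subtype.val '' Metric.closedBall (0 : LinearMap.range T.toLinearMap)
      (k * D)) :=
    haveI := FiniteDimensional.proper_real (LinearMap.range T.toLinearMap)
    (isCompact_closedBall _ _).image continuous_subtype_val
  obtain ⟨B, hB⟩ := compact_approx hc (η := 1 / 2) (by norm_num)
  have h1 : ∀ x : P.M, ∃ a : P.Mol, dist x P.base ≤ D → (P.coeffs a).support ⊆ B ∧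
      ‖T (sgl x : P.Mol) - a‖ ≤ 1 / 2 := by
    intro x
    by_cases hx : dist x P.base ≤ D
    · obtain ⟨a, ha⟩ := hB (T (sgl x : P.Mol)) ⟨⟨_, _, rfl⟩, mem_closedBall_zero_iff.mpr
        ((T4 _).trans (mul_le_mul_of_nonneg_left ((norm_sgl x).trans hx) k.cast_nonneg)), rfl⟩
      exact ⟨a, fun _ => ha⟩
    · exact ⟨0, fun h => absurd h hx⟩
  choose μ hμ using h1
  have T5 : ∀ x y : P.M, ‖T (sgl x : P.Mol) - T (sgl y : P.Mol)‖ ≤ k * dist x y := fun x y => by
    rw [← map_sub, ← UniformSpace.Completion.coe_sub]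
    exact (T4 _).trans (mul_le_mul_of_nonneg_left (norm_sgl_sub x y) k.cast_nonneg)
  have key : ∀ (x y : P.M) (b : P.Mol), dist x P.base ≤ D → ‖T (sgl y : P.Mol) - b‖ ≤ 1 / 2 →
      ‖μ x - b‖ ≤ k * dist x y + 1 := by
    intro x y b hx hb
    rw [← UniformSpace.Completion.norm_coe, UniformSpace.Completion.coe_sub]
    have c1 := norm_sub_le_norm_sub_add_norm_sub (μ x : P.FreeSpace) (T (sgl x : P.Mol)) b
    have c2 := norm_sub_le_norm_sub_add_norm_sub (T (sgl x : P.Mol)) (T (sgl y : P.Mol)) b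
    have c3 := (hμ x hx).2
    rw [norm_sub_rev] at c3
    linarith [T5 x y]
  exact ⟨B, μ, fun x hx => ⟨(hμ x hx).1, fun y hy => key x y _ hx (hμ y hy).2,
    fun y hy => key x y _ hx (T3 _ ⟨y, hy, rfl⟩)⟩⟩

end Crest.Agent.R115
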