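import Mathlib
import Crest.Agent.R115.Core
import Crest.Agent.R115.Free

/-!
The metric space and its properties.
-/

set_option autoImplicit false

namespace Crest.Agent.R115

open Crest.AnalysisR

/-- The pieces. -/
noncomputable def Dk (k : ℕ) : Data (k + 1) := (exists_data _).some

/-- The points. -/
abbrev MM : Type := Option (Σ k, (Dk k).V)

/-- Inclusion of a piece. -/
def ι (k : ℕ) (p : (Dk k).V) : MM := some ⟨k, p⟩

lemma ι_inj (k : ℕ) : Function.Injective (ι k) := fun p q h => by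
  simpa [ι] using h

/-- Globally admissible functions. -/
def GA (K : ℝ) (f : MM → ℝ) : Prop := ∀ k, (Dk k).Adm K fun p => f (ι k p) - f none

/-- Size of a piece. -/
def wt : MM → ℝ
  | none => 0
  | some ⟨k, _⟩ => 60 * ((k + 1 : ℕ) : ℝ) + 3600 * ((k + 1 : ℕ) : ℝ) ^ 2

lemma GA.le_wt {f : MM → ℝ} (h : GA 1 f) (u v : MM) : |f u - f v| ≤ wt u + wt v := by
  have h1 : ∀ u, |f u - f none| ≤ wt u := by
    rintro (_ | ⟨k, p⟩)
    · simp [wt]
    · have a1 := (h k).2.1 p
      have a2 := (h k).2.2 p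
      have a3 := abs_sub_le (f (ι k p) - f none) (f (ι k ((Dk k).proj p)) - f none) 0
      simp only [sub_zero] at a3
      exact a3.trans (by simp only [wt]; linarith)
  have := abs_sub_le (f u) (f none) (f v)
  rw [abs_sub_comm (f none)] at this
  linarith [h1 u, h1 v]

lemma adm_zero {lam : ℕ} (D : Data lam) {K : ℝ} (hK : 0 ≤ K) : D.Adm K fun _ => 0 :=
  ⟨fun _ _ _ => by simpa using hK, fun _ => by simp only [sub_self, abs_zero]; positivity,
    fun _ => by simp only [abs_zero]; positivity⟩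

lemma ga_of_bound {f : MM → ℝ} (h : ∀ u v, |f u - f v| ≤ 1) : GA 1 f := fun k => by
  have hk : (1 : ℝ) ≤ (k + 1 : ℕ) := by exact_mod_cast Nat.le_add_left 1 k
  exact ⟨fun p c _ => by simpa using h _ _, fun p => by
    rw [sub_sub_sub_cancel_right]; linarith [h (ι k p) (ι k ((Dk k).proj p))],
    fun p => by nlinarith [h (ι k ((Dk k).proj p)) none]⟩

instance : Nonempty {f : MM → ℝ // GA 1 f} := ⟨⟨fun _ => 0, ga_of_bound (by simp)⟩⟩

/-- The distance. -/
noncomputable def dd (u v : MM) : ℝ := ⨆ f : {f : MM → ℝ // GA 1 f}, |f.1 u - f.1 v|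

lemma GA.le_dd {f : MM → ℝ} (h : GA 1 f) (u v : MM) : |f u - f v| ≤ dd u v :=
  le_ciSup (f := fun f : {f : MM → ℝ // GA 1 f} => |f.1 u - f.1 v|)
    ⟨_, by rintro _ ⟨g, rfl⟩; exact g.2.le_wt u v⟩ ⟨f, h⟩

lemma dd_le {u v : MM} {C : ℝ} (h : ∀ f, GA 1 f → |f u - f v| ≤ C) : dd u v ≤ C :=
  ciSup_le fun f => h f.1 f.2

lemma one_le_dd {u v : MM} (h : u ≠ v) : 1 ≤ dd u v := by
  classical
  simpa [h.symm] using (ga_of_bound (f := fun w => if w = u then 1 else 0) fun a b => by
    split_ifs <;> simp).le_dd u v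

lemma GA.le_mul_dd {K : ℝ} (hK : 0 < K) {f : MM → ℝ} (h : GA K f) (u v : MM) :
    |f u - f v| ≤ K * dd u v := by
  have e : ∀ a b : ℝ, |a| ≤ K * b → |a / K| ≤ 1 * b := fun a b h => by
    rw [abs_div, abs_of_pos hK, div_le_iff₀ hK]; linarith
  have h1 : GA 1 fun u => f u / K := fun k =>
    ⟨fun p c hc => by
      simpa only [← sub_div, mul_one] using e _ 1 (by simpa using (h k).1 p c hc),
    fun p => by simpa only [← sub_div] using e _ _ ((h k).2.1 p),
    fun p => by simpa only [← sub_div] using e _ _ ((h k).2.2 p)⟩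
  have h2 := h1.le_dd u v
  rwa [← sub_div, abs_div, abs_of_pos hK, div_le_iff₀ hK, mul_comm] at h2

/-- The space. -/
@[reducible] noncomputable def PP : PointedMetric where
  M := MM
  metric :=
    { dist := dd
      dist_self := fun u => by simp [dd]
      dist_comm := fun u v => by simp only [dd, abs_sub_comm]
      dist_triangle := fun u v w => dd_le fun f hf =>
        (abs_sub_le _ _ _).trans (add_le_add (hf.le_dd u v) (hf.le_dd v w))
      eq_of_dist_eq_zero := fun {u v} h => by
        by_contra h'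
        have := one_le_dd h'
        change dd u v = 0 at h
        linarith }
  base := none

lemma ga_extend {k : ℕ} {K : ℝ} (hK : 0 ≤ K) {g : (Dk k).V → ℝ} (hg : (Dk k).Adm K g) :
    GA K (Function.extend (ι k) g 0) := by
  intro k'
  have h0 : Function.extend (ι k) g 0 none = 0 :=
    Function.extend_apply' _ _ _ (by simp [ι])
  rcases eq_or_ne k' k with rfl | h
  · simpa only [h0, sub_zero, (ι_inj k').extend_apply] using hg
  · have h1 : ∀ p, Function.extend (ι k) g 0 (ι k' p) = 0 := fun p =>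
      Function.extend_apply' _ _ _ (by
        rintro ⟨q, hq⟩
        exact h (congrArg Sigma.fst (Option.some.inj hq)).symm)
    simpa only [h0, h1, sub_zero] using adm_zero _ hK

/-- A point in each level. -/
noncomputable def pt (k j : ℕ) : (Dk k).V := ⟨j, ⟨0, ((Dk k).hL j).1⟩, ⟨0, (Dk k).nH_pos⟩⟩

theorem PP_spec : PP.IsCountableSeparatedUnboundedNonproper := by
  refine ⟨inferInstanceAs (Countable MM), fun u v => one_le_dd, fun h => ?_, fun h => ?_⟩
  · let := PP.metric
    obtain ⟨C, hC⟩ := Metric.isBounded_iff.mp h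
    obtain ⟨k, hk⟩ := exists_nat_gt C
    have h1 : (Dk k).Adm 1 fun _ => k :=
      ⟨fun _ _ _ => by simp, fun _ => by simp only [sub_self, abs_zero]; positivity, fun _ => by
        rw [Nat.abs_cast]; push_cast; nlinarith [k.cast_nonneg (α := ℝ)]⟩
    have h2 := (ga_extend zero_le_one h1).le_dd (ι k (pt k 0)) none
    rw [(ι_inj k).extend_apply, Function.extend_apply' _ _ _ (by simp [ι])] at h2
    have h3 : dd (ι k (pt k 0)) none ≤ C := hC (Set.mem_univ _) (Set.mem_univ _)
    simp at h2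
    linarith
  · let := PP.metric
    have : DiscreteTopology PP.M :=
      DiscreteTopology.of_forall_le_dist one_pos fun u v => one_le_dd
    refine Set.infinite_of_injective_forall_mem (f := fun j => ι 0 (pt 0 j))
      (fun i j hij => congrArg Sigma.fst (ι_inj 0 hij)) (fun j => ?_)
      (isCompact_closedBall PP.base (wt (ι 0 (pt 0 0)))).finite_of_discrete
    exact dd_le fun f hf => (hf.le_wt _ _).trans (by simp [wt, ι])

/-- Retraction onto the first pieces. -/
def rt (n : ℕ) : MM → MM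
  | none => none
  | some ⟨k, p⟩ => if k ≤ n then some ⟨k, p⟩ else none

theorem PP_ap : HasAP PP.FreeSpace := by
  refine hasAP_of_retract (fun u v => one_le_dd) fun B => ?_
  let n := B.sup fun u : MM => u.elim 0 Sigma.fst
  refine ⟨rt n, fun u v => dd_le fun f hf => GA.le_dd (f := fun u => f (rt n u)) (fun k => ?_) u v,
    rfl, ?_, 2 * wt (ι n (pt n 0)), fun u v => dd_le fun f hf => (hf.le_wt _ _).trans ?_⟩
  · by_cases h : k ≤ n
    · simpa only [ι, rt, if_pos h] using hf k
    · simpa only [ι, rt, if_neg h, sub_self] using adm_zero (Dk k) zero_le_one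
  · rintro (_ | ⟨k, p⟩) hu
    · rfl
    · exact if_pos (Finset.le_sup (f := fun u : MM => u.elim 0 Sigma.fst) hu)
  · have h1 : ∀ u, wt (rt n u) ≤ wt (ι n (pt n 0)) := by
      rintro (_ | ⟨k, p⟩)
      · simp only [rt, wt, ι]; positivity
      · simp only [rt]
        split_ifs with h
        · simp only [wt, ι]; gcongr
        · simp only [wt, ι]; positivity
    linarith [h1 u, h1 v]

theorem PP_not_bap : ¬ HasBAP PP.FreeSpace := by
  intro h
  obtain ⟨k, h⟩ := approx_of_hasBAP h
  obtain ⟨B, μ, h⟩ := h _ (Set.finite_range fun a : Fin (Dk k).nH =>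
    ι k ⟨0, (⟨0, ((Dk k).hL 0).1⟩, a)⟩) (wt (ι k (pt k 0)))
  have h0 : ∀ p, dd (ι k p) none ≤ wt (ι k (pt k 0)) := fun p =>
    dd_le fun f hf => (hf.le_wt _ _).trans (by simp [wt, ι])
  have hsum : ∀ (x : (Dk k).V) (g : (Dk k).V → ℝ),
      ∑ p ∈ B.preimage (ι k) (ι_inj k).injOn, PP.coeffs (μ (ι k x)) (ι k p) * g p =
        PP.pairing (μ (ι k x)) (Function.extend (ι k) g 0) := by
    intro x g
    rw [PointedMetric.pairing, Finsupp.sum_of_support_subset _ (h _ (h0 x)).1 _ (by simp)]
    refine Eq.trans (Finset.sum_congr rfl fun p _ => ?_) (Finset.sum_preimage (ι k) B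
      (ι_inj k).injOn (fun u => PP.coeffs (μ (ι k x)) u * Function.extend (ι k) g 0 u)
      fun u _ hu => ?_)
    · rw [(ι_inj k).extend_apply]
    · rw [Function.extend_apply' _ _ _ hu]; simp
  have hp : ∀ (K : ℝ) (g : (Dk k).V → ℝ), 0 < K → (Dk k).Adm K g → ∀ a : PP.Mol,
      |PP.pairing a (Function.extend (ι k) g 0)| ≤ K * ‖a‖ := fun K g hK hg =>
    abs_pairing_le hK ((ga_extend hK.le hg).le_mul_dd hK)
      (Function.extend_apply' _ _ _ (by rintro ⟨q, hq⟩; cases hq))
  have hk : (0 : ℝ) ≤ k := k.cast_nonneg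
  refine (Dk k).core (Nat.le_add_left 1 k) (B.preimage (ι k) (ι_inj k).injOn)
    (fun x p => PP.coeffs (μ (ι k x)) (ι k p)) (fun K g hK hg x c hc => ?_) fun K g hK hg x => ?_
  · rw [hsum, hsum, ← pairing_sub]
    refine (hp K g hK hg _).trans (mul_le_mul_of_nonneg_left
      (((h _ (h0 x)).2.1 _ (h0 _)).trans ?_) hK.le)
    have : dd (ι k x) (ι k ((Dk k).mv c x)) ≤ 1 := dd_le fun f hf => by
      simpa using (hf k).1 x c hc
    change k * dd _ _ + 1 ≤ _
    push_cast
    nlinarith
  · rw [hsum, ← (ι_inj k).extend_apply g 0,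
      ← pairing_sgl (P := PP) _ (Function.extend (ι k) g 0), ← pairing_sub]
    refine (hp K g hK hg _).trans (mul_le_mul_of_nonneg_left
      (((h _ (h0 x)).2.2 _ ⟨x.2.2, rfl⟩).trans ?_) hK.le)
    have : dd (ι k x) (ι k ((Dk k).proj x)) ≤ 60 * (k + 1) := dd_le fun f hf => by
      simpa using (hf k).2.1 x
    change k * dd _ (ι k ((Dk k).proj x)) + 1 ≤ _
    push_cast
    nlinarith

end Crest.Agent.R115
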